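import Vale.Agent.Lib.P031.Defs

namespace Vale.Agent.Lib.P031

open Filter Topology

theorem totientValuesLE_subset_Icc (x : ℝ) :
    totientValuesLE x ⊆ ((Finset.Icc 1 ⌊x⌋₊ : Finset ℕ) : Set ℕ) := by
  rintro v ⟨hv, n, hn, rfl⟩
  simp only [Finset.coe_Icc, Set.mem_Icc]
  exact ⟨Nat.totient_pos.mpr hn, Nat.le_floor hv⟩

theorem totientValuesLE_finite (x : ℝ) : (totientValuesLE x).Finite :=
  (Finset.finite_toSet _).subset (totientValuesLE_subset_Icc x)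

theorem totientCount_mono : Monotone totientCount := by
  intro x y hxy
  apply Set.ncard_le_ncard _ (totientValuesLE_finite y)
  rintro v ⟨hv, hn⟩
  exact ⟨hv.trans hxy, hn⟩

theorem one_le_totientCount {x : ℝ} (hx : 1 ≤ x) : 1 ≤ totientCount x := by
  have h1 : (1 : ℕ) ∈ totientValuesLE x := ⟨by simpa using hx, 1, one_pos, by simp⟩
  exact (Set.ncard_pos (totientValuesLE_finite x)).mpr ⟨1, h1⟩

theorem totientCount_le {x : ℝ} (hx : 0 ≤ x) : (totientCount x : ℝ) ≤ x := by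
  have h1 : totientCount x ≤ ((Finset.Icc 1 ⌊x⌋₊ : Finset ℕ) : Set ℕ).ncard :=
    Set.ncard_le_ncard (totientValuesLE_subset_Icc x) (Finset.finite_toSet _)
  rw [Set.ncard_coe_finset, Nat.card_Icc] at h1
  have h2 : ((⌊x⌋₊ : ℕ) : ℝ) ≤ x := Nat.floor_le hx
  have h3 : (totientCount x : ℝ) ≤ ((⌊x⌋₊ + 1 - 1 : ℕ) : ℝ) := by exact_mod_cast h1
  simpa using h3.trans (by simpa using h2)

theorem primeCounting_le_totientCount {x : ℝ} (hx : 0 ≤ x) :
    Nat.primeCounting ⌊x⌋₊ ≤ totientCount x := by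
  have hcard : Nat.primeCounting ⌊x⌋₊ = (Nat.primesLE ⌊x⌋₊).card := by
    rw [Nat.primeCounting, Nat.primeCounting', Nat.count_eq_card_filter_range]
    rfl
  rw [hcard]
  have hinj : Set.InjOn (fun p : ℕ => p - 1) ((Nat.primesLE ⌊x⌋₊ : Finset ℕ) : Set ℕ) := by
    intro p hp q hq hpq
    have h1 := Nat.two_le_of_mem_primesLE (Finset.mem_coe.1 hp)
    have h2 := Nat.two_le_of_mem_primesLE (Finset.mem_coe.1 hq)
    simp only at hpq
    omega
  have hsub : (fun p : ℕ => p - 1) '' ((Nat.primesLE ⌊x⌋₊ : Finset ℕ) : Set ℕ)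
      ⊆ totientValuesLE x := by
    rintro _ ⟨p, hp, rfl⟩
    have hp' := Nat.mem_primesLE.1 (Finset.mem_coe.1 hp)
    refine ⟨?_, p, hp'.2.pos, Nat.totient_prime hp'.2⟩
    have h1 : ((p - 1 : ℕ) : ℝ) ≤ (⌊x⌋₊ : ℝ) := by
      exact_mod_cast (Nat.sub_le p 1).trans hp'.1
    exact h1.trans (Nat.floor_le hx)
  calc (Nat.primesLE ⌊x⌋₊).card
      = ((Nat.primesLE ⌊x⌋₊ : Finset ℕ) : Set ℕ).ncard := (Set.ncard_coe_finset _).symm
    _ = ((fun p : ℕ => p - 1) '' ((Nat.primesLE ⌊x⌋₊ : Finset ℕ) : Set ℕ)).ncard :=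
        hinj.ncard_image.symm
    _ ≤ totientCount x := Set.ncard_le_ncard hsub (totientValuesLE_finite x)

end Vale.Agent.Lib.P031
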