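import Mathlib

namespace Vale.Agent.Lib.P031

/-- The set of values `v ≤ x` taken by Euler's totient function `φ(n)`, `n ≥ 1`. -/
def totientValuesLE (x : ℝ) : Set ℕ :=
  {v : ℕ | (v : ℝ) ≤ x ∧ ∃ n : ℕ, 0 < n ∧ Nat.totient n = v}

/-- `totientCount x` is `V(x)`: the number of distinct values of Euler's totient
function that are at most `x`. -/
noncomputable def totientCount (x : ℝ) : ℕ := (totientValuesLE x).ncard

end Vale.Agent.Lib.P031
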