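import Vale.Agent.Lib.P031.Ratio

namespace Vale.Agent.Lib.P031

open Finset

/-- With `B` the set of `k < K` at which `V(c^(k+1))/V(c^k) < r` fails, `r ^ |B| ≤ V(c^K)`. -/
theorem bad_count_pow_le {c r : ℝ} (hc : 1 < c) (hr : 1 ≤ r) (K : ℕ) :
    r ^ ((Finset.range K).filter (fun k : ℕ =>
        ¬ ((totientCount (c * c ^ k) : ℝ) / (totientCount (c ^ k) : ℝ) < r))).card
      ≤ (totientCount (c ^ K) : ℝ) := by
  induction K with
  | zero =>
    have h1 : 1 ≤ totientCount (c ^ 0) := one_le_totientCount (by simp)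
    have h2 : (1 : ℝ) ≤ (totientCount (c ^ 0) : ℝ) := by exact_mod_cast h1
    simpa using h2
  | succ K ih =>
    have hpos1 : 1 ≤ totientCount (c ^ K) := one_le_totientCount (one_le_pow₀ hc.le)
    have hpos : (0 : ℝ) < (totientCount (c ^ K) : ℝ) := by
      have : (1 : ℝ) ≤ (totientCount (c ^ K) : ℝ) := by exact_mod_cast hpos1
      linarith
    rw [Finset.range_add_one, Finset.filter_insert]
    split_ifs with h
    · refine ih.trans ?_
      have h5 : totientCount (c ^ K) ≤ totientCount (c ^ (K + 1)) :=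
        totientCount_mono (pow_le_pow_right₀ hc.le (Nat.le_succ K))
      exact_mod_cast h5
    · rw [Finset.card_insert_of_notMem (by simp), pow_succ]
      have h1 : r ≤ (totientCount (c * c ^ K) : ℝ) / (totientCount (c ^ K) : ℝ) := not_lt.1 h
      have h2 : r * (totientCount (c ^ K) : ℝ) ≤ (totientCount (c * c ^ K) : ℝ) :=
        (le_div_iff₀ hpos).1 h1
      have h3 : r ^ ((Finset.range K).filter (fun k : ℕ =>
          ¬ ((totientCount (c * c ^ k) : ℝ) / (totientCount (c ^ k) : ℝ) < r))).card * r
          ≤ (totientCount (c ^ K) : ℝ) * r :=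
        mul_le_mul_of_nonneg_right ih (by linarith)
      have h4 : c ^ (K + 1) = c * c ^ K := pow_succ' c K
      rw [h4]
      linarith

/-- For `c > 1`, `r > c` and every `K`, at least `K (1 - log c / log r)` of the `k < K`
satisfy `V(c^(k+1))/V(c^k) < r`. -/
theorem density_ratio_lt {c r : ℝ} (hc : 1 < c) (hr : c < r) (K : ℕ) :
    (K : ℝ) * (1 - Real.log c / Real.log r) ≤
      (((Finset.range K).filter (fun k : ℕ =>
        (totientCount (c * c ^ k) : ℝ) / (totientCount (c ^ k) : ℝ) < r)).card : ℝ) := by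
  have hc0 : 0 < c := by linarith
  have hr1 : 1 < r := by linarith
  have hcard : ((Finset.range K).filter (fun k : ℕ =>
        (totientCount (c * c ^ k) : ℝ) / (totientCount (c ^ k) : ℝ) < r)).card
      + ((Finset.range K).filter (fun k : ℕ =>
        ¬ ((totientCount (c * c ^ k) : ℝ) / (totientCount (c ^ k) : ℝ) < r))).card = K := by
    rw [Finset.card_filter_add_card_filter_not, Finset.card_range]
  have h1 : r ^ ((Finset.range K).filter (fun k : ℕ =>
        ¬ ((totientCount (c * c ^ k) : ℝ) / (totientCount (c ^ k) : ℝ) < r))).card ≤ c ^ K :=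
    (bad_count_pow_le hc hr1.le K).trans (totientCount_le (by positivity))
  have hlogr : 0 < Real.log r := Real.log_pos hr1
  have h2 : (((Finset.range K).filter (fun k : ℕ =>
        ¬ ((totientCount (c * c ^ k) : ℝ) / (totientCount (c ^ k) : ℝ) < r))).card : ℝ)
        * Real.log r ≤ (K : ℝ) * Real.log c := by
    have h := Real.log_le_log (by positivity) h1
    rwa [Real.log_pow, Real.log_pow] at h
  have h3 : (((Finset.range K).filter (fun k : ℕ =>
        ¬ ((totientCount (c * c ^ k) : ℝ) / (totientCount (c ^ k) : ℝ) < r))).card : ℝ)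
        ≤ (K : ℝ) * (Real.log c / Real.log r) := by
    rw [← mul_div_assoc, le_div_iff₀ hlogr]
    exact h2
  have h4 : (((Finset.range K).filter (fun k : ℕ =>
        (totientCount (c * c ^ k) : ℝ) / (totientCount (c ^ k) : ℝ) < r)).card : ℝ)
      + (((Finset.range K).filter (fun k : ℕ =>
        ¬ ((totientCount (c * c ^ k) : ℝ) / (totientCount (c ^ k) : ℝ) < r))).card : ℝ)
      = (K : ℝ) := by exact_mod_cast hcard
  have h5 : (K : ℝ) * (1 - Real.log c / Real.log r)
      = (K : ℝ) - (K : ℝ) * (Real.log c / Real.log r) := by ring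
  rw [h5]
  linarith

end Vale.Agent.Lib.P031
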