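import Vale.Agent.Lib.P031.Ratio

namespace Vale.Agent.Lib.P031

open Filter Topology

/-- For `c > 1` and `r > c`, the ratio `V(cx)/V(x)` is `< r` for arbitrarily large `x`. -/
theorem frequently_ratio_lt {c r : ℝ} (hc : 1 < c) (hr : c < r) :
    ∃ᶠ x : ℝ in atTop, (totientCount (c * x) : ℝ) / totientCount x < r := by
  have hc0 : 0 < c := by linarith
  have hr0 : 0 < r := by linarith
  by_contra hcon
  rw [not_frequently] at hcon
  obtain ⟨x₀, hx₀⟩ := eventually_atTop.1 hcon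
  obtain ⟨u, hu⟩ : ∃ u : ℕ → ℝ, ∀ k, u k = (totientCount (c ^ k) : ℝ) := ⟨_, fun _ => rfl⟩
  have hupos : ∀ k, 1 ≤ u k := by
    intro k
    have : 1 ≤ totientCount (c ^ k) := one_le_totientCount (one_le_pow₀ hc.le)
    rw [hu]
    exact_mod_cast this
  have hule : ∀ k, u k ≤ c ^ k := fun k => by
    rw [hu]; exact totientCount_le (by positivity)
  have hpow : Tendsto (fun k : ℕ => c ^ k) atTop atTop := tendsto_pow_atTop_atTop_of_one_lt hc
  obtain ⟨k₀, hk₀⟩ := eventually_atTop.1 (hpow.eventually_ge_atTop x₀)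
  have hstep : ∀ k, k₀ ≤ k → r * u k ≤ u (k + 1) := by
    intro k hk
    have h1 := hx₀ (c ^ k) (hk₀ k hk)
    rw [not_lt] at h1
    have h2 : 0 < u k := lt_of_lt_of_le one_pos (hupos k)
    rw [hu, hu, pow_succ']
    rw [hu] at h2
    exact (le_div_iff₀ h2).1 h1
  have hgeo := geometric_lower u r hr0 k₀ hstep
  obtain ⟨A, hA⟩ : ∃ A : ℝ, A = u k₀ / r ^ k₀ := ⟨_, rfl⟩
  rw [← hA] at hgeo
  have hApos : 0 < A := by
    have : 0 < u k₀ := lt_of_lt_of_le one_pos (hupos k₀)
    rw [hA]; positivity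
  have hq1 : 1 < r / c := (one_lt_div hc0).2 hr
  have t1 : Tendsto (fun k : ℕ => A * (r / c) ^ k) atTop atTop :=
    (tendsto_pow_atTop_atTop_of_one_lt hq1).const_mul_atTop hApos
  have hev2 : ∀ᶠ k : ℕ in atTop, 1 < A * (r / c) ^ k := t1.eventually_gt_atTop 1
  obtain ⟨k, hk1, hk2⟩ := (hev2.and (eventually_ge_atTop k₀)).exists
  have h1 : A * r ^ k ≤ c ^ k := (hgeo k hk2).trans (hule k)
  have hckpos : 0 < c ^ k := by positivity
  have : A * (r / c) ^ k ≤ 1 := by
    rw [div_pow, ← mul_div_assoc, div_le_one hckpos]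
    exact h1
  linarith

/-- For `c > 1` and `0 < r < c`, the ratio `V(cx)/V(x)` is `> r` for arbitrarily large `x`. -/
theorem frequently_ratio_gt_of_pos {c r : ℝ} (hc : 1 < c) (hr0 : 0 < r) (hrc : r < c) :
    ∃ᶠ x : ℝ in atTop, r < (totientCount (c * x) : ℝ) / totientCount x := by
  have hc0 : 0 < c := by linarith
  by_contra hcon
  rw [not_frequently] at hcon
  obtain ⟨x₀, hx₀⟩ := eventually_atTop.1 hcon
  obtain ⟨u, hu⟩ : ∃ u : ℕ → ℝ, ∀ k, u k = (totientCount (c ^ k) : ℝ) := ⟨_, fun _ => rfl⟩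
  have hupos : ∀ k, 1 ≤ u k := by
    intro k
    have : 1 ≤ totientCount (c ^ k) := one_le_totientCount (one_le_pow₀ hc.le)
    rw [hu]
    exact_mod_cast this
  have hpow : Tendsto (fun k : ℕ => c ^ k) atTop atTop := tendsto_pow_atTop_atTop_of_one_lt hc
  obtain ⟨k₀, hk₀⟩ := eventually_atTop.1 (hpow.eventually_ge_atTop x₀)
  have hstep : ∀ k, k₀ ≤ k → u (k + 1) ≤ r * u k := by
    intro k hk
    have h1 := hx₀ (c ^ k) (hk₀ k hk)
    rw [not_lt] at h1
    have h2 : 0 < u k := lt_of_lt_of_le one_pos (hupos k)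
    rw [hu, hu, pow_succ']
    rw [hu] at h2
    exact (div_le_iff₀ h2).1 h1
  have hgeo := geometric_upper u r hr0 k₀ hstep
  obtain ⟨A, hA⟩ : ∃ A : ℝ, A = u k₀ / r ^ k₀ := ⟨_, rfl⟩
  rw [← hA] at hgeo
  have hq : 0 ≤ r / c := by positivity
  have hq1 : r / c < 1 := (div_lt_one hc0).2 hrc
  have hc1 : 0 ≤ 1 / c := by positivity
  have hc2 : 1 / c < 1 := by rw [div_lt_one hc0]; exact hc
  have hlogc : 0 < Real.log c := Real.log_pos hc
  have t1 : Tendsto (fun k : ℕ => (k : ℝ) * (r / c) ^ k) atTop (𝓝 0) :=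
    tendsto_self_mul_const_pow_of_lt_one hq hq1
  have t2 : Tendsto (fun k : ℕ => (k : ℝ) * (1 / c) ^ k) atTop (𝓝 0) :=
    tendsto_self_mul_const_pow_of_lt_one hc1 hc2
  have t3 : Tendsto (fun k : ℕ => (1 / c) ^ k) atTop (𝓝 0) :=
    tendsto_pow_atTop_nhds_zero_of_lt_one hc1 hc2
  have tend : Tendsto (fun k : ℕ => (1 - (1 / c) ^ k) * Real.log 2
      - A * Real.log c * ((k : ℝ) * (r / c) ^ k) - Real.log c * ((k : ℝ) * (1 / c) ^ k)
      - Real.log 3 * (1 / c) ^ k) atTop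
      (𝓝 ((1 - 0) * Real.log 2 - A * Real.log c * 0 - Real.log c * 0 - Real.log 3 * 0)) :=
    (((tendsto_const_nhds.sub t3).mul_const _).sub (t1.const_mul _)).sub (t2.const_mul _)
      |>.sub (t3.const_mul _)
  have hle : ∀ᶠ k : ℕ in atTop, (1 - (1 / c) ^ k) * Real.log 2
      - A * Real.log c * ((k : ℝ) * (r / c) ^ k) - Real.log c * ((k : ℝ) * (1 / c) ^ k)
      - Real.log 3 * (1 / c) ^ k ≤ 0 := by
    filter_upwards [eventually_ge_atTop (max k₀ 1)] with k hk
    have hk0 : k₀ ≤ k := le_trans (le_max_left _ _) hk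
    have hk1 : 1 ≤ k := le_trans (le_max_right _ _) hk
    have hck : 1 < c ^ k := one_lt_pow₀ hc (by omega)
    have hckpos : 0 < c ^ k := by positivity
    have hlb := lower_bound hck
    rw [Real.log_pow] at hlb
    have hub : u k ≤ A * r ^ k := hgeo k hk0
    rw [hu] at hub
    have hklog : 0 ≤ (k : ℝ) * Real.log c := by positivity
    have h5 : (c ^ k - 1) * Real.log 2 ≤ (A * r ^ k + 1) * ((k : ℝ) * Real.log c) + Real.log 3 := by
      have : ((totientCount (c ^ k) : ℝ) + 1) * ((k : ℝ) * Real.log c)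
          ≤ (A * r ^ k + 1) * ((k : ℝ) * Real.log c) := by
        apply mul_le_mul_of_nonneg_right _ hklog
        linarith
      linarith
    have h6 : (c ^ k - 1) * Real.log 2 / c ^ k
        ≤ ((A * r ^ k + 1) * ((k : ℝ) * Real.log c) + Real.log 3) / c ^ k :=
      div_le_div_of_nonneg_right h5 hckpos.le
    have e1 : (c ^ k - 1) * Real.log 2 / c ^ k = (1 - (1 / c) ^ k) * Real.log 2 := by
      rw [one_div, inv_pow]; field_simp
    have e2 : ((A * r ^ k + 1) * ((k : ℝ) * Real.log c) + Real.log 3) / c ^ k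
        = A * Real.log c * ((k : ℝ) * (r / c) ^ k) + Real.log c * ((k : ℝ) * (1 / c) ^ k)
          + Real.log 3 * (1 / c) ^ k := by
      rw [one_div, inv_pow, div_pow]; field_simp
    rw [e1, e2] at h6
    linarith
  have := le_of_tendsto tend hle
  have hlog2 : 0 < Real.log 2 := Real.log_pos (by norm_num)
  linarith

theorem frequently_ratio_gt {c r : ℝ} (hc : 1 < c) (hrc : r < c) :
    ∃ᶠ x : ℝ in atTop, r < (totientCount (c * x) : ℝ) / totientCount x := by
  have hc0 : 0 < c := by linarith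
  have h := frequently_ratio_gt_of_pos hc (r := max r (c / 2)) (by positivity)
    (max_lt hrc (by linarith))
  exact h.mono fun x hx => lt_of_le_of_lt (le_max_left _ _) hx

end Vale.Agent.Lib.P031
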