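import Vale.Agent.Lib.P031.Basic

namespace Vale.Agent.Lib.P031

open Filter Topology

/-- Chebyshev-type lower bound: `(x - 1) log 2 ≤ (V(x) + 1) log x + log 3` for `x > 1`. -/
theorem lower_bound {x : ℝ} (hx : 1 < x) :
    (x - 1) * Real.log 2 ≤ ((totientCount x : ℝ) + 1) * Real.log x + Real.log 3 := by
  have hlog : 0 < Real.log x := Real.log_pos hx
  have h1 := Chebyshev.pi_ge' hx
  have h2 : ((Nat.primeCounting ⌊x⌋₊ : ℕ) : ℝ) ≤ (totientCount x : ℝ) := by
    exact_mod_cast primeCounting_le_totientCount (by linarith : (0:ℝ) ≤ x)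
  have h3 : ((x - 1) * Real.log 2 - Real.log (x + 2)) ≤ (totientCount x : ℝ) * Real.log x := by
    have := (div_le_iff₀ hlog).1 (h1.trans h2)
    exact this
  have h4 : Real.log (x + 2) ≤ Real.log 3 + Real.log x := by
    rw [← Real.log_mul (by norm_num) (by linarith)]
    apply Real.log_le_log (by linarith)
    linarith
  linarith

/-- Geometric growth from an eventual ratio bound (upper). -/
theorem geometric_upper (u : ℕ → ℝ) (r : ℝ) (hr : 0 < r) (k₀ : ℕ)
    (h : ∀ k, k₀ ≤ k → u (k + 1) ≤ r * u k) :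
    ∀ k, k₀ ≤ k → u k ≤ (u k₀ / r ^ k₀) * r ^ k := by
  intro k hk
  induction k, hk using Nat.le_induction with
  | base => field_simp; exact le_refl _
  | succ k hk ih =>
    calc u (k + 1) ≤ r * u k := h k hk
      _ ≤ r * ((u k₀ / r ^ k₀) * r ^ k) := by gcongr
      _ = (u k₀ / r ^ k₀) * r ^ (k + 1) := by ring

/-- Geometric growth from an eventual ratio bound (lower). -/
theorem geometric_lower (u : ℕ → ℝ) (r : ℝ) (hr : 0 < r) (k₀ : ℕ)
    (h : ∀ k, k₀ ≤ k → r * u k ≤ u (k + 1)) :
    ∀ k, k₀ ≤ k → (u k₀ / r ^ k₀) * r ^ k ≤ u k := by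
  intro k hk
  induction k, hk using Nat.le_induction with
  | base => field_simp; exact le_refl _
  | succ k hk ih =>
    calc (u k₀ / r ^ k₀) * r ^ (k + 1) = r * ((u k₀ / r ^ k₀) * r ^ k) := by ring
      _ ≤ r * u k := by gcongr
      _ ≤ u (k + 1) := h k hk

/-- If `V(cx)/V(x)` converges as `x → ∞` (for a fixed `c > 1`), its limit is `c`. -/
theorem limit_eq_of_tendsto {c L : ℝ} (hc : 1 < c)
    (h : Tendsto (fun x : ℝ => (totientCount (c * x) : ℝ) / totientCount x) atTop (𝓝 L)) :
    L = c := by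
  have hc0 : 0 < c := by linarith
  set u : ℕ → ℝ := fun k => (totientCount (c ^ k) : ℝ) with hu
  have hupos : ∀ k, 1 ≤ u k := by
    intro k
    have : 1 ≤ totientCount (c ^ k) := one_le_totientCount (one_le_pow₀ hc.le)
    show (1 : ℝ) ≤ (totientCount (c ^ k) : ℝ)
    exact_mod_cast this
  have hule : ∀ k, u k ≤ c ^ k := fun k => totientCount_le (by positivity)
  have hpow : Tendsto (fun k : ℕ => c ^ k) atTop atTop := tendsto_pow_atTop_atTop_of_one_lt hc
  have hratio : Tendsto (fun k : ℕ => u (k + 1) / u k) atTop (𝓝 L) := by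
    have := h.comp hpow
    refine this.congr (fun k => ?_)
    simp only [Function.comp, hu, pow_succ']
  have hL0 : 0 ≤ L := by
    apply ge_of_tendsto' hratio
    intro k
    have := hupos k
    have := hupos (k + 1)
    positivity
  by_contra hne
  rcases lt_or_gt_of_ne hne with hlt | hgt
  · -- L < c
    obtain ⟨r, hr⟩ : ∃ r : ℝ, r = (L + c) / 2 := ⟨_, rfl⟩
    have hr0 : 0 < r := by rw [hr]; linarith
    have hrc : r < c := by rw [hr]; linarith
    have hLr : L < r := by rw [hr]; linarith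
    have hev : ∀ᶠ k in atTop, u (k + 1) / u k < r := hratio.eventually (gt_mem_nhds hLr) |>.mono fun k hk => hk
    obtain ⟨k₀, hk₀⟩ := eventually_atTop.1 hev
    have hstep : ∀ k, k₀ ≤ k → u (k + 1) ≤ r * u k := by
      intro k hk
      have h1 := hk₀ k hk
      have h2 : 0 < u k := lt_of_lt_of_le one_pos (hupos k)
      have := (div_lt_iff₀ h2).1 h1
      linarith
    have hgeo := geometric_upper u r hr0 k₀ hstep
    obtain ⟨A, hA⟩ : ∃ A : ℝ, A = u k₀ / r ^ k₀ := ⟨_, rfl⟩
    rw [← hA] at hgeo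
    -- the lower bound
    have hq : 0 ≤ r / c := by positivity
    have hq1 : r / c < 1 := (div_lt_one hc0).2 hrc
    have hc1 : 0 ≤ 1 / c := by positivity
    have hc2 : 1 / c < 1 := by rw [div_lt_one hc0]; exact hc
    have hlogc : 0 < Real.log c := Real.log_pos hc
    have t1 : Tendsto (fun k : ℕ => (k : ℝ) * (r / c) ^ k) atTop (𝓝 0) :=
      tendsto_self_mul_const_pow_of_lt_one hq hq1
    have t2 : Tendsto (fun k : ℕ => (k : ℝ) * (1 / c) ^ k) atTop (𝓝 0) :=
      tendsto_self_mul_const_pow_of_lt_one hc1 hc2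
    have t3 : Tendsto (fun k : ℕ => (1 / c) ^ k) atTop (𝓝 0) :=
      tendsto_pow_atTop_nhds_zero_of_lt_one hc1 hc2
    have tend : Tendsto (fun k : ℕ => (1 - (1 / c) ^ k) * Real.log 2
        - A * Real.log c * ((k : ℝ) * (r / c) ^ k) - Real.log c * ((k : ℝ) * (1 / c) ^ k)
        - Real.log 3 * (1 / c) ^ k) atTop
        (𝓝 ((1 - 0) * Real.log 2 - A * Real.log c * 0 - Real.log c * 0 - Real.log 3 * 0)) :=
      (((tendsto_const_nhds.sub t3).mul_const _).sub (t1.const_mul _)).sub (t2.const_mul _)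
        |>.sub (t3.const_mul _)
    have hle : ∀ᶠ k : ℕ in atTop, (1 - (1 / c) ^ k) * Real.log 2
        - A * Real.log c * ((k : ℝ) * (r / c) ^ k) - Real.log c * ((k : ℝ) * (1 / c) ^ k)
        - Real.log 3 * (1 / c) ^ k ≤ 0 := by
      filter_upwards [eventually_ge_atTop (max k₀ 1)] with k hk
      have hk0 : k₀ ≤ k := le_trans (le_max_left _ _) hk
      have hk1 : 1 ≤ k := le_trans (le_max_right _ _) hk
      have hck : 1 < c ^ k := one_lt_pow₀ hc (by omega)
      have hckpos : 0 < c ^ k := by positivity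
      have hlb := lower_bound hck
      rw [Real.log_pow] at hlb
      have hub : u k ≤ A * r ^ k := hgeo k hk0
      have hklog : 0 ≤ (k : ℝ) * Real.log c := by positivity
      have h5 : (c ^ k - 1) * Real.log 2 ≤ (A * r ^ k + 1) * ((k : ℝ) * Real.log c) + Real.log 3 := by
        have : ((totientCount (c ^ k) : ℝ) + 1) * ((k : ℝ) * Real.log c)
            ≤ (A * r ^ k + 1) * ((k : ℝ) * Real.log c) := by
          apply mul_le_mul_of_nonneg_right _ hklog
          linarith
        linarith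
      have h6 : (c ^ k - 1) * Real.log 2 / c ^ k
          ≤ ((A * r ^ k + 1) * ((k : ℝ) * Real.log c) + Real.log 3) / c ^ k :=
        div_le_div_of_nonneg_right h5 hckpos.le
      have e1 : (c ^ k - 1) * Real.log 2 / c ^ k = (1 - (1 / c) ^ k) * Real.log 2 := by
        rw [one_div, inv_pow]; field_simp
      have e2 : ((A * r ^ k + 1) * ((k : ℝ) * Real.log c) + Real.log 3) / c ^ k
          = A * Real.log c * ((k : ℝ) * (r / c) ^ k) + Real.log c * ((k : ℝ) * (1 / c) ^ k)
            + Real.log 3 * (1 / c) ^ k := by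
        rw [one_div, inv_pow, div_pow]; field_simp
      rw [e1, e2] at h6
      linarith
    have := le_of_tendsto tend hle
    have hlog2 : 0 < Real.log 2 := Real.log_pos (by norm_num)
    linarith
  · -- c < L
    obtain ⟨r, hr⟩ : ∃ r : ℝ, r = (L + c) / 2 := ⟨_, rfl⟩
    have hr0 : 0 < r := by rw [hr]; linarith
    have hrc : c < r := by rw [hr]; linarith
    have hLr : r < L := by rw [hr]; linarith
    have hev : ∀ᶠ k in atTop, r < u (k + 1) / u k := hratio.eventually (lt_mem_nhds hLr)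
    obtain ⟨k₀, hk₀⟩ := eventually_atTop.1 hev
    have hstep : ∀ k, k₀ ≤ k → r * u k ≤ u (k + 1) := by
      intro k hk
      have h1 := hk₀ k hk
      have h2 : 0 < u k := lt_of_lt_of_le one_pos (hupos k)
      have := (lt_div_iff₀ h2).1 h1
      linarith
    have hgeo := geometric_lower u r hr0 k₀ hstep
    obtain ⟨A, hA⟩ : ∃ A : ℝ, A = u k₀ / r ^ k₀ := ⟨_, rfl⟩
    rw [← hA] at hgeo
    have hApos : 0 < A := by
      have : 0 < u k₀ := lt_of_lt_of_le one_pos (hupos k₀)
      rw [hA]; positivity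
    have hq1 : 1 < r / c := (one_lt_div hc0).2 hrc
    have t1 : Tendsto (fun k : ℕ => A * (r / c) ^ k) atTop atTop :=
      (tendsto_pow_atTop_atTop_of_one_lt hq1).const_mul_atTop hApos
    have hev2 : ∀ᶠ k : ℕ in atTop, 1 < A * (r / c) ^ k := t1.eventually_gt_atTop 1
    obtain ⟨k, hk1, hk2⟩ := (hev2.and (eventually_ge_atTop k₀)).exists
    have h1 : A * r ^ k ≤ c ^ k := (hgeo k hk2).trans (hule k)
    have hckpos : 0 < c ^ k := by positivity
    have : A * (r / c) ^ k ≤ 1 := by
      rw [div_pow, ← mul_div_assoc, div_le_one hckpos]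
      exact h1
    linarith

end Vale.Agent.Lib.P031
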