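import Vale.Agent.Lib.P031.Ratio

namespace Vale.Agent.Lib.P031

open Filter Topology

/-- The statement `V(cx)/V(x) → c` as `x → ∞`. -/
def RatioTendsto (c : ℝ) : Prop :=
  Tendsto (fun x : ℝ => (totientCount (c * x) : ℝ) / totientCount x) atTop (𝓝 c)

theorem eventually_totientCount_ne_zero :
    ∀ᶠ x : ℝ in atTop, (totientCount x : ℝ) ≠ 0 := by
  filter_upwards [eventually_ge_atTop (1 : ℝ)] with x hx
  have := one_le_totientCount hx
  have h : (0 : ℝ) < (totientCount x : ℝ) := by exact_mod_cast this
  exact h.ne'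

theorem ratioTendsto_one : RatioTendsto 1 := by
  unfold RatioTendsto
  refine tendsto_const_nhds.congr' ?_
  filter_upwards [eventually_totientCount_ne_zero] with x hx
  rw [one_mul, div_self hx]

theorem ratioTendsto_mul {a b : ℝ} (hb : 0 < b) (ha : RatioTendsto a) (hb' : RatioTendsto b) :
    RatioTendsto (a * b) := by
  unfold RatioTendsto at *
  have hmul : Tendsto (fun x : ℝ => b * x) atTop atTop := tendsto_id.const_mul_atTop hb
  have h1 := ha.comp hmul
  have h2 := h1.mul hb'
  refine h2.congr' ?_
  filter_upwards [hmul.eventually eventually_totientCount_ne_zero] with x hx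
  simp only [Function.comp]
  rw [mul_assoc, div_mul_div_cancel₀ hx]

theorem ratioTendsto_inv {a : ℝ} (ha0 : 0 < a) (ha : RatioTendsto a) : RatioTendsto a⁻¹ := by
  unfold RatioTendsto at *
  have hmul : Tendsto (fun x : ℝ => a⁻¹ * x) atTop atTop :=
    tendsto_id.const_mul_atTop (inv_pos.2 ha0)
  have h1 := (ha.comp hmul).inv₀ ha0.ne'
  refine h1.congr' ?_
  filter_upwards with x
  simp only [Function.comp]
  rw [inv_div, ← mul_assoc, mul_inv_cancel₀ ha0.ne', one_mul]

theorem ratioTendsto_exp_of_mem_closure {s t : ℝ}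
    (hs : RatioTendsto (Real.exp s)) (ht : RatioTendsto (Real.exp t))
    {w : ℝ} (hw : w ∈ AddSubgroup.closure ({s, t} : Set ℝ)) : RatioTendsto (Real.exp w) := by
  induction hw using AddSubgroup.closure_induction with
  | mem x hx =>
    rcases hx with rfl | rfl
    · exact hs
    · exact ht
  | zero => rw [Real.exp_zero]; exact ratioTendsto_one
  | add x y _ _ hx hy => rw [Real.exp_add]; exact ratioTendsto_mul (Real.exp_pos y) hx hy
  | neg x _ hx => rw [Real.exp_neg]; exact ratioTendsto_inv (Real.exp_pos x) hx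

/-- If `V(ax)/V(x) → a` and `V(bx)/V(x) → b` with `log a / log b` irrational, then
`V(cx)/V(x) → c` for every `c > 0`. -/
theorem ratioTendsto_of_pair {a b : ℝ} (ha0 : 0 < a) (hb0 : 0 < b)
    (hirr : Irrational (Real.log a / Real.log b))
    (ha : RatioTendsto a) (hb : RatioTendsto b) {c : ℝ} (hc : 0 < c) : RatioTendsto c := by
  have hdense : Dense ((AddSubgroup.closure ({Real.log a, Real.log b} : Set ℝ) : Set ℝ)) :=
    dense_addSubgroupClosure_pair_iff.2 hirr
  have hmem : ∀ w ∈ AddSubgroup.closure ({Real.log a, Real.log b} : Set ℝ),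
      RatioTendsto (Real.exp w) := by
    intro w hw
    refine ratioTendsto_exp_of_mem_closure ?_ ?_ hw
    · rw [Real.exp_log ha0]; exact ha
    · rw [Real.exp_log hb0]; exact hb
  unfold RatioTendsto
  rw [tendsto_order]
  constructor
  · intro l hl
    -- choose a group element between max l (c/2) and c
    have hl' : max l (c / 2) < c := max_lt hl (by linarith)
    have hpos : 0 < max l (c / 2) := lt_of_lt_of_le (by linarith) (le_max_right _ _)
    obtain ⟨w, hw, hw1, hw2⟩ := hdense.exists_between (Real.log_lt_log hpos hl')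
    have hw1' : max l (c / 2) < Real.exp w := by
      rw [← Real.exp_log hpos]; exact Real.exp_lt_exp.2 hw1
    have hw2' : Real.exp w < c := by
      rw [← Real.exp_log hc]; exact Real.exp_lt_exp.2 hw2
    have hlim := hmem w hw
    unfold RatioTendsto at hlim
    have hev := hlim.eventually (lt_mem_nhds (lt_of_le_of_lt (le_max_left _ _) hw1'))
    filter_upwards [hev, eventually_ge_atTop (1 : ℝ)] with x hx hx1
    refine lt_of_lt_of_le hx ?_
    have hmono : totientCount (Real.exp w * x) ≤ totientCount (c * x) :=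
      totientCount_mono (by nlinarith)
    have hmono' : (totientCount (Real.exp w * x) : ℝ) ≤ totientCount (c * x) := by
      exact_mod_cast hmono
    exact div_le_div_of_nonneg_right hmono' (Nat.cast_nonneg _)
  · intro l hl
    obtain ⟨w, hw, hw1, hw2⟩ := hdense.exists_between (Real.log_lt_log hc hl)
    have hw1' : c < Real.exp w := by
      rw [← Real.exp_log hc]; exact Real.exp_lt_exp.2 hw1
    have hw2' : Real.exp w < l := by
      rw [← Real.exp_log (hc.trans hl)]; exact Real.exp_lt_exp.2 hw2
    have hlim := hmem w hw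
    unfold RatioTendsto at hlim
    have hev := hlim.eventually (gt_mem_nhds hw2')
    filter_upwards [hev, eventually_ge_atTop (1 : ℝ)] with x hx hx1
    refine lt_of_le_of_lt ?_ hx
    have hmono : totientCount (c * x) ≤ totientCount (Real.exp w * x) :=
      totientCount_mono (by nlinarith)
    have hmono' : (totientCount (c * x) : ℝ) ≤ totientCount (Real.exp w * x) := by
      exact_mod_cast hmono
    exact div_le_div_of_nonneg_right hmono' (Nat.cast_nonneg _)

theorem irrational_log_two_div_log_three : Irrational (Real.log 2 / Real.log 3) := by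
  rintro ⟨q, hq⟩
  have h3 : 0 < Real.log 3 := Real.log_pos (by norm_num)
  have h2 : 0 < Real.log 2 := Real.log_pos (by norm_num)
  have hqpos : (0 : ℝ) < q := by rw [hq]; positivity
  have hq0 : 0 < q := by exact_mod_cast hqpos
  have hnum : 0 < q.num := Rat.num_pos.mpr hq0
  obtain ⟨n, hn⟩ : ∃ n : ℕ, q.num = n := ⟨q.num.toNat, (Int.toNat_of_nonneg hnum.le).symm⟩
  have hd : (0 : ℝ) < q.den := by exact_mod_cast q.den_pos
  have hqd : (q : ℝ) = (n : ℝ) / (q.den : ℝ) := by
    have h := Rat.num_div_den q
    have h' : ((q.num : ℚ) / (q.den : ℚ) : ℝ) = (q : ℝ) := by exact_mod_cast congrArg (fun r : ℚ => (r : ℝ)) h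
    rw [← h', hn]
    push_cast
    rfl
  have key : (q.den : ℝ) * Real.log 2 = (n : ℝ) * Real.log 3 := by
    rw [hqd] at hq
    field_simp at hq
    linarith
  have hlog : Real.log ((2 : ℝ) ^ q.den) = Real.log ((3 : ℝ) ^ n) := by
    rw [Real.log_pow, Real.log_pow]; exact key
  have h' : ((2 : ℝ) ^ q.den) = (3 : ℝ) ^ n :=
    Real.log_injOn_pos (Set.mem_Ioi.2 (by positivity)) (Set.mem_Ioi.2 (by positivity)) hlog
  have h'' : 2 ^ q.den = 3 ^ n := by exact_mod_cast h'
  have hdvd : 2 ∣ 3 ^ n := by rw [← h'']; exact dvd_pow_self 2 q.den_ne_zero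
  have := Nat.Prime.dvd_of_dvd_pow Nat.prime_two hdvd
  omega

end Vale.Agent.Lib.P031
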